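import Mathlib

/-!
Copy (for P249, kept self-contained) of the min-degree subset lemma written by helper71 for
P055 job 188: a graph with `m ≥ 1` edges and `m ≥ d * n` has a nonempty vertex set in which
every vertex has at least `d + 1` neighbours.
-/

namespace Vale.Agent.Lib.P249.H94.MD

open Finset

open Classical in
/-- The number of neighbours of `v` inside `S`. -/
noncomputable def degIn {V : Type*} (G : SimpleGraph V) (S : Finset V) (v : V) : ℕ :=
  (S.filter fun w => G.Adj v w).card

/-- The number of ordered adjacent pairs inside `S`. -/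
noncomputable def e2 {V : Type*} (G : SimpleGraph V) (S : Finset V) : ℕ :=
  ∑ v ∈ S, degIn G S v

theorem degIn_le_card_erase {V : Type*} [DecidableEq V] (G : SimpleGraph V) (S : Finset V)
    (v : V) : degIn G S v ≤ (S.erase v).card := by
  classical
  unfold degIn
  apply Finset.card_le_card
  intro w hw
  rw [Finset.mem_filter] at hw
  refine Finset.mem_erase.2 ⟨fun h => ?_, hw.1⟩
  rw [h] at hw
  exact G.irrefl hw.2

open Classical in
theorem degIn_erase {V : Type*} [DecidableEq V] (G : SimpleGraph V) (S : Finset V) (v u : V)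
    (hv : v ∈ S) :
    degIn G S u = degIn G (S.erase v) u + (if G.Adj u v then 1 else 0) := by
  classical
  unfold degIn
  rw [Finset.filter_erase]
  by_cases h : G.Adj u v
  · rw [if_pos h]
    have hmem : v ∈ S.filter fun w => G.Adj u w := Finset.mem_filter.2 ⟨hv, h⟩
    rw [Finset.card_erase_add_one hmem]
  · rw [if_neg h, add_zero]
    have hmem : v ∉ S.filter fun w => G.Adj u w := fun hh => h (Finset.mem_filter.1 hh).2
    rw [Finset.erase_eq_of_notMem hmem]

theorem e2_erase {V : Type*} [DecidableEq V] (G : SimpleGraph V) (S : Finset V) (v : V)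
    (hv : v ∈ S) : e2 G (S.erase v) + 2 * degIn G S v = e2 G S := by
  classical
  have h1 : e2 G S = degIn G S v + ∑ u ∈ S.erase v, degIn G S u := by
    unfold e2
    rw [Finset.add_sum_erase S (fun u => degIn G S u) hv]
  have h2 : ∑ u ∈ S.erase v, degIn G S u
      = e2 G (S.erase v) + ∑ u ∈ S.erase v, (if G.Adj u v then 1 else 0) := by
    unfold e2
    rw [← Finset.sum_add_distrib]
    apply Finset.sum_congr rfl
    intro u _
    exact degIn_erase G S v u hv
  have h3 : ∑ u ∈ S.erase v, (if G.Adj u v then 1 else 0) = degIn G S v := by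
    rw [← Finset.card_filter]
    unfold degIn
    congr 1
    ext w
    simp only [Finset.mem_filter, Finset.mem_erase]
    constructor
    · rintro ⟨⟨_, hw⟩, hadj⟩
      exact ⟨hw, hadj.symm⟩
    · rintro ⟨hw, hadj⟩
      refine ⟨⟨fun h => ?_, hw⟩, hadj.symm⟩
      rw [h] at hadj
      exact G.irrefl hadj
  rw [h1, h2, h3]
  ring

theorem exists_minDeg_aux {V : Type*} [DecidableEq V] (G : SimpleGraph V) (d : ℕ) :
    ∀ n : ℕ, ∀ S : Finset V, S.card = n → S.Nonempty → 2 * d * S.card < e2 G S + 2 * d →
      ∃ T : Finset V, T.Nonempty ∧ ∀ v ∈ T, d + 1 ≤ degIn G T v := by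
  intro n
  induction n with
  | zero =>
    intro S hS hne _
    exact absurd (Finset.card_eq_zero.1 hS) hne.ne_empty
  | succ n ih =>
    intro S hS hne hI
    by_cases hall : ∀ v ∈ S, d + 1 ≤ degIn G S v
    · exact ⟨S, hne, hall⟩
    · have hex : ∃ v ∈ S, degIn G S v < d + 1 := by
        by_contra hcon
        apply hall
        intro v hv
        by_contra hlt
        exact hcon ⟨v, hv, not_le.1 hlt⟩
      obtain ⟨v, hv, hvd⟩ := hex
      have hkey := e2_erase G S v hv
      have hcard : (S.erase v).card = n := by
        rw [Finset.card_erase_of_mem hv, hS]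
        rfl
      have hdeg := degIn_le_card_erase G S v
      rw [hS] at hI
      have hexp : 2 * d * (n + 1) = 2 * d * n + 2 * d := by ring
      have hne' : (S.erase v).Nonempty := by
        rw [← Finset.card_pos, hcard]
        rcases Nat.eq_zero_or_pos n with h0 | hpos
        · exfalso
          rw [hcard, h0] at hdeg
          have hS0 : S.erase v = ∅ := Finset.card_eq_zero.1 (by rw [hcard, h0])
          have he0 : e2 G (S.erase v) = 0 := by
            rw [hS0]
            rfl
          rw [h0] at hI
          have h1 : 2 * d * (0 + 1) = 2 * d := by ring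
          rw [h1] at hI
          omega
        · exact hpos
      apply ih (S.erase v) hcard hne'
      rw [hcard]
      omega

theorem exists_minDegree_subset {V : Type*} [Fintype V] [DecidableEq V] (G : SimpleGraph V)
    (d : ℕ) (hpos : 0 < G.edgeSet.ncard) (hm : d * Fintype.card V ≤ G.edgeSet.ncard) :
    ∃ S : Finset V, S.Nonempty ∧ ∀ v ∈ S, d + 1 ≤ {w | w ∈ S ∧ G.Adj v w}.ncard := by
  classical
  have hdeg : ∀ v : V, degIn G (Finset.univ : Finset V) v = G.degree v := by
    intro v
    unfold degIn
    rw [← SimpleGraph.card_neighborFinset_eq_degree]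
    congr 1
    ext w
    simp
  have hedges : G.edgeSet.ncard = G.edgeFinset.card := by
    rw [← SimpleGraph.coe_edgeFinset, Set.ncard_coe_finset]
  have he2 : e2 G (Finset.univ : Finset V) = 2 * G.edgeSet.ncard := by
    unfold e2
    rw [hedges, ← SimpleGraph.sum_degrees_eq_twice_card_edges]
    exact Finset.sum_congr rfl (fun v _ => hdeg v)
  have hne : (Finset.univ : Finset V).Nonempty := by
    obtain ⟨e, _⟩ := Set.nonempty_of_ncard_ne_zero hpos.ne'
    exact ⟨e.out.1, Finset.mem_univ _⟩
  have hI : 2 * d * (Finset.univ : Finset V).card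
      < e2 G (Finset.univ : Finset V) + 2 * d := by
    rw [he2, Finset.card_univ]
    have h1 : 2 * d * Fintype.card V = 2 * (d * Fintype.card V) := by ring
    rcases Nat.eq_zero_or_pos d with h0 | hd
    · rw [h0]
      omega
    · omega
  obtain ⟨T, hT, hTdeg⟩ := exists_minDeg_aux G d _ Finset.univ rfl hne hI
  refine ⟨T, hT, fun v hv => ?_⟩
  have hset : {w | w ∈ T ∧ G.Adj v w} = ((T.filter fun w => G.Adj v w : Finset V) : Set V) := by
    ext w
    simp
  rw [hset, Set.ncard_coe_finset]
  exact hTdeg v hv

end Vale.Agent.Lib.P249.H94.MD
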