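import Mathlib
import Vale.Agent.Lib.P249.helper94.MinDeg

namespace Vale.Agent.Lib.P249.H94

open SimpleGraph

section Moore

variable {V : Type*} [Fintype V]

/-- The graph of the edges of `G` with both ends in `S` (on the same vertex type). -/
def inS (G : SimpleGraph V) (S : Finset V) : SimpleGraph V where
  Adj a b := G.Adj a b ∧ a ∈ S ∧ b ∈ S
  symm := ⟨fun _ _ h => ⟨h.1.symm, h.2.2, h.2.1⟩⟩
  loopless := ⟨fun _ h => G.irrefl h.1⟩

/-- The ball of radius `t` around `r` in `H`: the end points of walks of length at most `t`. -/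
noncomputable def ball (H : SimpleGraph V) (r : V) (t : ℕ) : Finset V :=
  @Finset.filter V (fun z => ∃ p : H.Walk r z, p.length ≤ t) (Classical.decPred _) Finset.univ

theorem mem_ball {H : SimpleGraph V} {r z : V} {t : ℕ} :
    z ∈ ball H r t ↔ ∃ p : H.Walk r z, p.length ≤ t := by
  unfold ball
  simp only [Finset.mem_filter, Finset.mem_univ, true_and]

theorem ball_mono (H : SimpleGraph V) (r : V) {s t : ℕ} (h : s ≤ t) :
    ball H r s ⊆ ball H r t := by
  intro z hz
  rw [mem_ball] at hz ⊢
  obtain ⟨p, hp⟩ := hz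
  exact ⟨p, hp.trans h⟩

theorem ball_step {H : SimpleGraph V} {r z y : V} {t : ℕ} (hz : z ∈ ball H r t)
    (h : H.Adj z y) : y ∈ ball H r (t + 1) := by
  rw [mem_ball] at hz ⊢
  obtain ⟨p, hp⟩ := hz
  exact ⟨p.concat h, by rw [Walk.length_concat]; omega⟩

theorem self_mem_ball (H : SimpleGraph V) (r : V) (t : ℕ) : r ∈ ball H r t :=
  mem_ball.mpr ⟨Walk.nil, by simp⟩

theorem ball_zero {H : SimpleGraph V} {r z : V} (hz : z ∈ ball H r 0) : z = r := by
  rw [mem_ball] at hz
  obtain ⟨p, hp⟩ := hz
  exact (Walk.eq_of_length_eq_zero (Nat.le_zero.mp hp)).symm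

omit [Fintype V] in
theorem walk_mem (G : SimpleGraph V) (S : Finset V) {u z : V} (p : (inS G S).Walk u z)
    (hu : u ∈ S) : z ∈ S := by
  induction p with
  | nil => exact hu
  | cons h p ih => exact ih h.2.2

/-- Key fact: a vertex outside the ball of radius `t` has at most one neighbour in the ball of
radius `t + 1`, as long as `2 t + 3 ≤ 2 κ - 1`. -/
theorem key_unique [DecidableEq V] (G : SimpleGraph V) (κ : ℕ)
    (hstar : ∀ a b, G.Adj a b →
      ∀ p : (G.deleteEdges {s(a, b)}).Walk a b, 2 * κ - 1 < p.length)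
    (S : Finset V) (r : V) (t : ℕ) (ht : 2 * t + 3 ≤ 2 * κ - 1) {z y1 y2 : V}
    (hz : z ∉ ball (inS G S) r t)
    (h1 : (inS G S).Adj z y1) (h2 : (inS G S).Adj z y2)
    (hy1 : y1 ∈ ball (inS G S) r (t + 1)) (hy2 : y2 ∈ ball (inS G S) r (t + 1)) : y1 = y2 := by
  by_contra hne
  obtain ⟨p1, hp1⟩ := mem_ball.mp hy1
  obtain ⟨p2, hp2⟩ := mem_ball.mp hy2
  have hle : inS G S ≤ G := fun a b h => h.1
  have hnot : ∀ {y : V} (p : (inS G S).Walk r y), p.length ≤ t + 1 → z ≠ y →
      z ∉ p.support := by
    intro y p hp hzy hmem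
    apply hz
    rw [mem_ball]
    have hlt := Walk.length_takeUntil_lt_length hmem hzy
    exact ⟨p.takeUntil z hmem, by omega⟩
  have hz1 : z ≠ y1 := fun h => (inS G S).irrefl (h ▸ h1)
  have hz2 : z ≠ y2 := fun h => (inS G S).irrefl (h ▸ h2)
  have hn1 := hnot p1 hp1 hz1
  have hn2 := hnot p2 hp2 hz2
  have hWe : s(y1, z) ∉ ((p1.reverse.append
      (p2.append (Walk.cons h2.symm Walk.nil))).mapLe hle).edges := by
    rw [Walk.edges_mapLe_eq_edges]
    simp only [Walk.edges_append, Walk.edges_reverse, Walk.edges_cons, Walk.edges_nil,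
      List.mem_append, List.mem_reverse, List.mem_singleton]
    rintro (h | h | h)
    · exact hn1 (Walk.snd_mem_support_of_mem_edges p1 h)
    · exact hn2 (Walk.snd_mem_support_of_mem_edges p2 h)
    · rcases Sym2.eq_iff.mp h with ⟨e1, _⟩ | ⟨e1, _⟩
      · exact hne e1
      · exact hz1 e1.symm
  have hadj : G.Adj y1 z := h1.1.symm
  have hlong := hstar y1 z hadj (((p1.reverse.append
      (p2.append (Walk.cons h2.symm Walk.nil))).mapLe hle).toDeleteEdge _ hWe)
  simp only [Walk.length_transfer, Walk.length_map, Walk.length_append, Walk.length_reverse,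
    Walk.length_cons, Walk.length_nil] at hlong
  omega

/-- Moore-type bound: a nonempty vertex set in which every vertex has at least three
neighbours forces many vertices when no edge can be bypassed by a walk of length
at most `2 κ - 1`. -/
theorem moore [DecidableEq V] (G : SimpleGraph V) [DecidableRel G.Adj] (κ : ℕ) (hκ : 2 ≤ κ)
    (hstar : ∀ a b, G.Adj a b →
      ∀ p : (G.deleteEdges {s(a, b)}).Walk a b, 2 * κ - 1 < p.length)
    (S : Finset V) (hS : S.Nonempty)
    (hdeg : ∀ v ∈ S, 3 ≤ (S.filter (fun w => G.Adj v w)).card) :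
    3 * 2 ^ (κ - 1) ≤ Fintype.card V + 2 := by
  classical
  obtain ⟨r, hr⟩ := hS
  have hN : ∀ z ∈ S, ∀ w ∈ S.filter (fun w => G.Adj z w), (inS G S).Adj z w := by
    intro z hz w hw
    rw [Finset.mem_filter] at hw
    exact ⟨hw.2, hz, hw.1⟩
  have hballS : ∀ t, ∀ z ∈ ball (inS G S) r t, z ∈ S := by
    intro t z hz
    obtain ⟨p, -⟩ := mem_ball.mp hz
    exact walk_mem G S p hr
  have hup : ∀ t, 2 * t + 3 ≤ 2 * κ - 1 →
      ∀ z ∈ ball (inS G S) r (t + 1) \ ball (inS G S) r t,
      2 ≤ ((ball (inS G S) r (t + 2) \ ball (inS G S) r (t + 1)).filter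
        (fun y => (inS G S).Adj z y)).card := by
    intro t ht z hz
    rw [Finset.mem_sdiff] at hz
    have hzS := hballS _ z hz.1
    have h3 := hdeg z hzS
    have hsplit := Finset.card_filter_add_card_filter_not (s := S.filter (fun w => G.Adj z w))
      (fun w => w ∈ ball (inS G S) r (t + 1))
    have hle1 : ((S.filter (fun w => G.Adj z w)).filter
        (fun w => w ∈ ball (inS G S) r (t + 1))).card ≤ 1 := by
      rw [Finset.card_le_one]
      intro a ha b hb
      rw [Finset.mem_filter] at ha hb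
      exact key_unique G κ hstar S r t ht hz.2 (hN z hzS a ha.1) (hN z hzS b hb.1) ha.2 hb.2
    have hsub : (S.filter (fun w => G.Adj z w)).filter
        (fun w => ¬ w ∈ ball (inS G S) r (t + 1)) ⊆
        (ball (inS G S) r (t + 2) \ ball (inS G S) r (t + 1)).filter
          (fun y => (inS G S).Adj z y) := by
      intro w hw
      rw [Finset.mem_filter] at hw
      rw [Finset.mem_filter, Finset.mem_sdiff]
      exact ⟨⟨ball_step hz.1 (hN z hzS w hw.1), hw.2⟩, hN z hzS w hw.1⟩
    have hc := Finset.card_le_card hsub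
    omega
  have hdown : ∀ t, 2 * t + 5 ≤ 2 * κ - 1 →
      ∀ y ∈ ball (inS G S) r (t + 2) \ ball (inS G S) r (t + 1),
      ((ball (inS G S) r (t + 1) \ ball (inS G S) r t).filter
        (fun z => (inS G S).Adj z y)).card ≤ 1 := by
    intro t ht y hy
    rw [Finset.mem_sdiff] at hy
    rw [Finset.card_le_one]
    intro a ha b hb
    rw [Finset.mem_filter, Finset.mem_sdiff] at ha hb
    exact key_unique G κ hstar S r (t + 1) (by omega) hy.2 ha.2.symm hb.2.symm
      (ball_mono (inS G S) r (by omega) ha.1.1) (ball_mono (inS G S) r (by omega) hb.1.1)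
  have hgrow : ∀ t, 2 * t + 5 ≤ 2 * κ - 1 →
      2 * (ball (inS G S) r (t + 1) \ ball (inS G S) r t).card ≤
        (ball (inS G S) r (t + 2) \ ball (inS G S) r (t + 1)).card := by
    intro t ht
    have hdc := Finset.card_mul_le_card_mul (fun z y => (inS G S).Adj z y)
      (s := ball (inS G S) r (t + 1) \ ball (inS G S) r t)
      (t := ball (inS G S) r (t + 2) \ ball (inS G S) r (t + 1))
      (m := 2) (n := 1) (fun z hz => hup t (by omega) z hz) (fun y hy => hdown t ht y hy)
    omega
  have hA1 : 3 ≤ (ball (inS G S) r 1 \ ball (inS G S) r 0).card := by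
    refine le_trans (hdeg r hr) (Finset.card_le_card ?_)
    intro w hw
    have hadj := hN r hr w hw
    rw [Finset.mem_sdiff]
    refine ⟨ball_step (self_mem_ball (inS G S) r 0) hadj, fun h0 => ?_⟩
    have hwr := ball_zero h0
    rw [hwr] at hadj
    exact (inS G S).irrefl hadj
  have hcard : ∀ t, (ball (inS G S) r (t + 1)).card =
      (ball (inS G S) r t).card + (ball (inS G S) r (t + 1) \ ball (inS G S) r t).card := by
    intro t
    have := Finset.card_sdiff_add_card_eq_card (ball_mono (inS G S) r (Nat.le_add_right t 1))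
    omega
  have hQ : ∀ t, t + 2 ≤ κ →
      3 * 2 ^ t ≤ (ball (inS G S) r (t + 1) \ ball (inS G S) r t).card ∧
      3 * 2 ^ (t + 1) ≤ (ball (inS G S) r (t + 1)).card + 2 := by
    intro t
    induction t with
    | zero =>
      intro _
      have h0 : 1 ≤ (ball (inS G S) r 0).card :=
        Finset.card_pos.mpr ⟨r, self_mem_ball (inS G S) r 0⟩
      have hc := hcard 0
      constructor
      · simpa using hA1
      · simp only [zero_add, pow_one] at hc hA1 ⊢
        omega
    | succ t ih =>
      intro ht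
      obtain ⟨ih1, ih2⟩ := ih (by omega)
      have hg : 2 * (ball (inS G S) r (t + 1) \ ball (inS G S) r t).card ≤
          (ball (inS G S) r (t + 1 + 1) \ ball (inS G S) r (t + 1)).card := hgrow t (by omega)
      have hc := hcard (t + 1)
      have e1 : 2 ^ (t + 1) = 2 * 2 ^ t := by ring
      have e2 : 2 ^ (t + 1 + 1) = 2 * 2 ^ (t + 1) := by ring
      constructor
      · rw [e1]; omega
      · rw [e2]; omega
  obtain ⟨k, hk⟩ : ∃ k, κ = k + 2 := ⟨κ - 2, by omega⟩
  subst hk
  obtain ⟨-, h2⟩ := hQ k (le_refl _)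
  have hle : (ball (inS G S) r (k + 1)).card ≤ Fintype.card V := Finset.card_le_univ _
  have hk1 : k + 2 - 1 = k + 1 := by omega
  rw [hk1]
  omega

end Moore

/-- Edge bound for the greedy hop-spanner: a graph on fewer than `3 * 2 ^ (κ - 1) - 2` vertices
in which no edge can be bypassed by a walk of length at most `2 κ - 1` has at most `2 n`
edges. -/
theorem edge_bound {V : Type*} [Fintype V] [DecidableEq V] (G : SimpleGraph V)
    [DecidableRel G.Adj] (κ : ℕ) (hκ : 2 ≤ κ) (hn : Fintype.card V + 2 < 3 * 2 ^ (κ - 1))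
    (hstar : ∀ a b, G.Adj a b →
      ∀ p : (G.deleteEdges {s(a, b)}).Walk a b, 2 * κ - 1 < p.length) :
    G.edgeFinset.card ≤ 2 * Fintype.card V := by
  by_contra hcon
  have hcon' : 2 * Fintype.card V < G.edgeFinset.card := not_le.mp hcon
  have hedges : G.edgeSet.ncard = G.edgeFinset.card := by
    rw [← SimpleGraph.coe_edgeFinset, Set.ncard_coe_finset]
  obtain ⟨S, hSne, hSdeg⟩ := MD.exists_minDegree_subset G 2 (by omega) (by omega)
  have hdeg : ∀ v ∈ S, 3 ≤ (S.filter (fun w => G.Adj v w)).card := by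
    intro v hv
    have h := hSdeg v hv
    have hset : {w | w ∈ S ∧ G.Adj v w} =
        ((S.filter fun w => G.Adj v w : Finset V) : Set V) := by
      ext w; simp
    rw [hset, Set.ncard_coe_finset] at h
    exact h
  have hm := moore G κ hκ hstar S hSne hdeg
  omega

end Vale.Agent.Lib.P249.H94
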