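import Mathlib

namespace Vale.Agent.Lib.P249.H94

open SimpleGraph

/-- Splitting lemma: a walk in a graph `H'` all of whose edges are edges of `H` or join `a`
and `b` can be replaced by a walk of `H` that is not longer, or it yields two walks of `H`,
from the start to one of `a`, `b` and from the other one to the end, of total length smaller
by at least one. -/
theorem split_walk {V : Type*} (H H' : SimpleGraph V) (a b : V)
    (hH' : ∀ x y, H'.Adj x y → H.Adj x y ∨ (x = a ∧ y = b) ∨ (x = b ∧ y = a))
    {c d : V} (W : H'.Walk c d) :
    (∃ Q : H.Walk c d, Q.length ≤ W.length) ∨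
    (∃ (Q1 : H.Walk c a) (Q2 : H.Walk b d), Q1.length + Q2.length + 1 ≤ W.length) ∨
    (∃ (Q1 : H.Walk c b) (Q2 : H.Walk a d), Q1.length + Q2.length + 1 ≤ W.length) := by
  induction W with
  | nil => exact Or.inl ⟨Walk.nil, le_rfl⟩
  | @cons u v w h W' ih =>
    rcases hH' u v h with hadj | ⟨hu, hv⟩ | ⟨hu, hv⟩
    · rcases ih with ⟨Q, hQ⟩ | ⟨Q1, Q2, hQ⟩ | ⟨Q1, Q2, hQ⟩
      · exact Or.inl ⟨Walk.cons hadj Q, by
          simp only [Walk.length_cons]; omega⟩
      · exact Or.inr (Or.inl ⟨Walk.cons hadj Q1, Q2, by
          simp only [Walk.length_cons]; omega⟩)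
      · exact Or.inr (Or.inr ⟨Walk.cons hadj Q1, Q2, by
          simp only [Walk.length_cons]; omega⟩)
    · subst hu; subst hv
      rcases ih with ⟨Q, hQ⟩ | ⟨Q1, Q2, hQ⟩ | ⟨Q1, Q2, hQ⟩
      · exact Or.inr (Or.inl ⟨Walk.nil, Q, by
          simp only [Walk.length_cons, Walk.length_nil]; omega⟩)
      · exact Or.inr (Or.inl ⟨Walk.nil, Q2, by
          simp only [Walk.length_cons, Walk.length_nil]; omega⟩)
      · exact Or.inl ⟨Q2, by
          simp only [Walk.length_cons]; omega⟩
    · subst hu; subst hv
      rcases ih with ⟨Q, hQ⟩ | ⟨Q1, Q2, hQ⟩ | ⟨Q1, Q2, hQ⟩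
      · exact Or.inr (Or.inr ⟨Walk.nil, Q, by
          simp only [Walk.length_cons, Walk.length_nil]; omega⟩)
      · exact Or.inl ⟨Q2, by
          simp only [Walk.length_cons]; omega⟩
      · exact Or.inr (Or.inr ⟨Walk.nil, Q2, by
          simp only [Walk.length_cons, Walk.length_nil]; omega⟩)

/-- Existence of the greedy hop-spanner: for every weight `vv` on the pairs and every `L ≥ 1`
there is a graph in which no edge can be bypassed by a walk of length at most `L`, and in which
any two distinct vertices are joined by a walk of length at most `L` through pairs that are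
not heavier than the pair itself. -/
theorem exists_greedy {V : Type*} [Fintype V] [DecidableEq V] (vv : Sym2 V → ℝ) (L : ℕ)
    (hL : 1 ≤ L) :
    ∃ G : SimpleGraph V,
      (∀ a b, G.Adj a b → ∀ p : (G.deleteEdges {s(a, b)}).Walk a b, L < p.length) ∧
      (∀ a b, a ≠ b → ∃ p : G.Walk a b, p.length ≤ L ∧ ∀ e ∈ p.edges, vv e ≤ vv s(a, b)) := by
  classical
  have key : ∀ T : Finset (Sym2 V), ∃ E : Finset (Sym2 V), E ⊆ T ∧ (∀ f ∈ E, ¬ f.IsDiag) ∧
      (∀ c d, s(c, d) ∈ E →
        ∀ p : ((fromEdgeSet (E : Set (Sym2 V))).deleteEdges {s(c, d)}).Walk c d, L < p.length) ∧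
      (∀ a b, s(a, b) ∈ T → ∃ p : (fromEdgeSet (E : Set (Sym2 V))).Walk a b,
        p.length ≤ L ∧ ∀ f ∈ p.edges, vv f ≤ vv s(a, b)) := by
    intro T
    refine Finset.induction_on_max_value vv T ?_ ?_
    · exact ⟨∅, by simp, by simp, by simp, by simp⟩
    · intro e T heT hmax ih
      obtain ⟨E, hET, hdiag, hinv, hwalk⟩ := ih
      induction e using Sym2.ind with
      | _ a b =>
      by_cases hab : a = b
      · subst hab
        refine ⟨E, hET.trans (Finset.subset_insert _ _), hdiag, hinv, ?_⟩
        intro x y hxy
        rcases Finset.mem_insert.mp hxy with h | h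
        · have hxy' : x = y := by
            rcases Sym2.eq_iff.mp h with ⟨h1, h2⟩ | ⟨h1, h2⟩ <;> rw [h1, h2]
          subst hxy'
          exact ⟨Walk.nil, by simp, by simp⟩
        · exact hwalk x y h
      · by_cases hw : ∃ p : (fromEdgeSet (E : Set (Sym2 V))).Walk a b, p.length ≤ L
        · obtain ⟨p, hp⟩ := hw
          have hpe : ∀ f ∈ p.edges, vv f ≤ vv s(a, b) := by
            intro f hf
            have h1 := p.edges_subset_edgeSet hf
            rw [edgeSet_fromEdgeSet] at h1
            exact hmax f (hET (Finset.mem_coe.mp h1.1))
          refine ⟨E, hET.trans (Finset.subset_insert _ _), hdiag, hinv, ?_⟩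
          intro x y hxy
          rcases Finset.mem_insert.mp hxy with h | h
          · rcases Sym2.eq_iff.mp h with ⟨h1, h2⟩ | ⟨h1, h2⟩
            · subst h1; subst h2
              exact ⟨p, hp, hpe⟩
            · subst h1; subst h2
              refine ⟨p.reverse, by simpa using hp, ?_⟩
              intro f hf
              rw [Walk.edges_reverse, List.mem_reverse] at hf
              rw [Sym2.eq_swap]
              exact hpe f hf
          · exact hwalk x y h
        · have hle : fromEdgeSet (E : Set (Sym2 V)) ≤
              fromEdgeSet ((insert s(a, b) E : Finset (Sym2 V)) : Set (Sym2 V)) :=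
            fromEdgeSet_mono (fun f hf =>
              Finset.mem_coe.mpr (Finset.mem_insert_of_mem (Finset.mem_coe.mp hf)))
          refine ⟨insert s(a, b) E, Finset.insert_subset_insert _ hET, ?_, ?_, ?_⟩
          · intro f hf
            rcases Finset.mem_insert.mp hf with h | h
            · rw [h]; simpa using hab
            · exact hdiag f h
          · intro c d hcd p
            by_contra hlt
            have hpl : p.length ≤ L := not_lt.mp hlt
            by_cases hce : s(c, d) = s(a, b)
            · have hle2 : (fromEdgeSet ((insert s(a, b) E : Finset (Sym2 V)) :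
                  Set (Sym2 V))).deleteEdges {s(c, d)} ≤ fromEdgeSet (E : Set (Sym2 V)) := by
                intro x y hxy
                rw [deleteEdges_adj, fromEdgeSet_adj] at hxy
                rw [fromEdgeSet_adj]
                obtain ⟨⟨h1, h2⟩, h3⟩ := hxy
                refine ⟨?_, h2⟩
                rcases Finset.mem_insert.mp (Finset.mem_coe.mp h1) with h | h
                · exact (h3 (Set.mem_singleton_iff.mpr (h.trans hce.symm))).elim
                · exact Finset.mem_coe.mpr h
              rcases Sym2.eq_iff.mp hce with ⟨h1, h2⟩ | ⟨h1, h2⟩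
              · subst h1; subst h2
                exact hw ⟨p.mapLe hle2, by simpa using hpl⟩
              · subst h1; subst h2
                exact hw ⟨(p.mapLe hle2).reverse, by simpa using hpl⟩
            · have hcdE : s(c, d) ∈ E := by
                rcases Finset.mem_insert.mp hcd with h | h
                · exact absurd h hce
                · exact h
              have hcne : c ≠ d := by
                have := hdiag _ hcdE
                simpa using this
              have hadjcd : (fromEdgeSet (E : Set (Sym2 V))).Adj c d := by
                rw [fromEdgeSet_adj]; exact ⟨Finset.mem_coe.mpr hcdE, hcne⟩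
              have hH' : ∀ x y, ((fromEdgeSet ((insert s(a, b) E : Finset (Sym2 V)) :
                  Set (Sym2 V))).deleteEdges {s(c, d)}).Adj x y →
                  ((fromEdgeSet (E : Set (Sym2 V))).deleteEdges {s(c, d)}).Adj x y ∨
                    (x = a ∧ y = b) ∨ (x = b ∧ y = a) := by
                intro x y hxy
                rw [deleteEdges_adj, fromEdgeSet_adj] at hxy
                obtain ⟨⟨h1, h2⟩, h3⟩ := hxy
                rcases Finset.mem_insert.mp (Finset.mem_coe.mp h1) with h | h
                · exact Or.inr (Sym2.eq_iff.mp h)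
                · left
                  rw [deleteEdges_adj, fromEdgeSet_adj]
                  exact ⟨⟨Finset.mem_coe.mpr h, h2⟩, h3⟩
              have hdel : (fromEdgeSet (E : Set (Sym2 V))).deleteEdges {s(c, d)} ≤
                  fromEdgeSet (E : Set (Sym2 V)) := deleteEdges_le _
              rcases split_walk _ _ a b hH' p with ⟨Q, hQ⟩ | ⟨Q1, Q2, hQ⟩ | ⟨Q1, Q2, hQ⟩
              · have := hinv c d hcdE Q
                omega
              · apply hw
                refine ⟨(Q1.mapLe hdel).reverse.append
                  (Walk.cons hadjcd (Q2.mapLe hdel).reverse), ?_⟩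
                simp only [Walk.length_append, Walk.length_reverse, Walk.length_cons,
                  Walk.length_map]
                omega
              · apply hw
                refine ⟨((Q1.mapLe hdel).reverse.append
                  (Walk.cons hadjcd (Q2.mapLe hdel).reverse)).reverse, ?_⟩
                simp only [Walk.length_append, Walk.length_reverse, Walk.length_cons,
                  Walk.length_map]
                omega
          · intro x y hxy
            rcases Finset.mem_insert.mp hxy with h | h
            · have hxne : x ≠ y := by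
                rcases Sym2.eq_iff.mp h with ⟨h1, h2⟩ | ⟨h1, h2⟩
                · rw [h1, h2]; exact hab
                · rw [h1, h2]; exact fun hba => hab hba.symm
              have hadj : (fromEdgeSet ((insert s(a, b) E : Finset (Sym2 V)) :
                  Set (Sym2 V))).Adj x y := by
                rw [fromEdgeSet_adj]
                refine ⟨?_, hxne⟩
                rw [h]
                exact Finset.mem_coe.mpr (Finset.mem_insert_self _ _)
              refine ⟨Walk.cons hadj Walk.nil, by simpa using hL, ?_⟩
              intro f hf
              simp only [Walk.edges_cons, Walk.edges_nil, List.mem_singleton] at hf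
              rw [hf]
            · obtain ⟨p, hp, hpe⟩ := hwalk x y h
              refine ⟨p.mapLe hle, by simpa using hp, ?_⟩
              intro f hf
              rw [Walk.edges_mapLe_eq_edges] at hf
              exact hpe f hf
  obtain ⟨E, -, -, hinv, hwalk⟩ := key Finset.univ
  refine ⟨fromEdgeSet (E : Set (Sym2 V)), ?_, ?_⟩
  · intro a b hadj p
    rw [fromEdgeSet_adj] at hadj
    exact hinv a b (Finset.mem_coe.mp hadj.1) p
  · intro a b _
    exact hwalk a b (Finset.mem_univ _)

end Vale.Agent.Lib.P249.H94
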